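import Vale.Agent.P224.R2.H176.T0.Mom

/-!
The dependent moments in terms of 33 free ones.
-/

namespace Vale.Agent.P224.R2.H176

variable {M P Q U : Fin 5 → Fin 5 → ℝ} {d b X : Fin 5 → ℝ}

theorem Mom.dM04 (h : Mom M P Q U d b X) :
    M 0 4 = (1/4) + (-1) * M 0 0 + (-1) * M 0 1 + (-1) * M 0 2 + (-1) * M 0 3 + (-1/8) * d 0 :=
    by
  linear_combination 1 * (h.hX 0) + (1/4) * (h.q 0)

theorem Mom.dM14 (h : Mom M P Q U d b X) :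
    M 1 4 = (1/4) + (-1) * M 0 1 + (-1) * M 1 1 + (-1) * M 1 2 + (-1) * M 1 3 + (-1/8) * d 1 :=
    by
  linear_combination (-1) * (h.Ms 1 0) + 1 * (h.hX 1) + (1/4) * (h.q 1)

theorem Mom.dM24 (h : Mom M P Q U d b X) :
    M 2 4 = (1/4) + (-1) * M 0 2 + (-1) * M 1 2 + (-1) * M 2 2 + (-1) * M 2 3 + (-1/8) * d 2 :=
    by
  linear_combination (-1) * (h.Ms 2 0) + (-1) * (h.Ms 2 1) + 1 * (h.hX 2) + (1/4) * (h.q 2)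

theorem Mom.dM34 (h : Mom M P Q U d b X) :
    M 3 4 = (1/4) + (-1) * M 0 3 + (-1) * M 1 3 + (-1) * M 2 3 + (-1) * M 3 3 + (-1/8) * d 3 :=
    by
  linear_combination (-1) * (h.Ms 3 0) + (-1) * (h.Ms 3 1) + (-1) * (h.Ms 3 2) + 1 * (h.hX 3) +
  (1/4) * (h.q 3)

theorem Mom.dM44 (h : Mom M P Q U d b X) :
    M 4 4 = (-1) + 1 * M 0 0 + 2 * M 0 1 + 2 * M 0 2 + 2 * M 0 3 + 1 * M 1 1 + 2 * M 1 2 + 2 * M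
    1 3 + 1 * M 2 2 + 2 * M 2 3 + 1 * M 3 3 + (1/4) * d 0 + (1/4) * d 1 + (1/4) * d 2 + (1/4) * d
    3 := by
  linear_combination 1 * (h.Ms 1 0) + 1 * (h.Ms 2 0) + 1 * (h.Ms 2 1) + 1 * (h.Ms 3 0) + 1 *
  (h.Ms 3 1) + 1 * (h.Ms 3 2) + (-1) * (h.Ms 4 0) + (-1) * (h.Ms 4 1) + (-1) * (h.Ms 4 2) + (-1)
  * (h.Ms 4 3) + (-1) * (h.hX 0) + (-1/10) * (h.hP 0) + (1/10) * (h.hD 0) + (-3/10) * (h.q 0) +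
  (-1) * (h.hX 1) + (-1/10) * (h.hP 1) + (1/10) * (h.hD 1) + (-3/10) * (h.q 1) + (-1) * (h.hX 2)
  + (-1/10) * (h.hP 2) + (1/10) * (h.hD 2) + (-3/10) * (h.q 2) + (-1) * (h.hX 3) + (-1/10) *
  (h.hP 3) + (1/10) * (h.hD 3) + (-3/10) * (h.q 3) + 1 * (h.hX 4) + (-1/10) * (h.hP 4) + (1/10) *
  (h.hD 4) + (1/5) * (h.q 4)

theorem Mom.dP00 (h : Mom M P Q U d b X) :
    P 0 0 = (1/2) + (-4) * M 0 0 + (-1/4) * d 0 := by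
  linear_combination (1/2) * (h.q 0) + (-2) * (h.s2 0)

theorem Mom.dP01 (h : Mom M P Q U d b X) :
    P 0 1 = 1 * P 1 0 + (-1/4) * d 0 + (1/4) * d 1 := by
  linear_combination 12 * (h.Ms 1 0) + 2 * (h.Qs 1 0) + (1/2) * (h.q 0) + (-1/2) * (h.q 1) + (-2)
  * (h.s1 0 1 (by decide)) + 2 * (h.s1 1 0 (by decide))

theorem Mom.dP02 (h : Mom M P Q U d b X) :
    P 0 2 = 1 * P 2 0 + (-1/4) * d 0 + (1/4) * d 2 := by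
  linear_combination 12 * (h.Ms 2 0) + 2 * (h.Qs 2 0) + (1/2) * (h.q 0) + (-1/2) * (h.q 2) + (-2)
  * (h.s1 0 2 (by decide)) + 2 * (h.s1 2 0 (by decide))

theorem Mom.dP03 (h : Mom M P Q U d b X) :
    P 0 3 = 1 * P 3 0 + (-1/4) * d 0 + (1/4) * d 3 := by
  linear_combination 12 * (h.Ms 3 0) + 2 * (h.Qs 3 0) + (1/2) * (h.q 0) + (-1/2) * (h.q 3) + (-2)
  * (h.s1 0 3 (by decide)) + 2 * (h.s1 3 0 (by decide))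

theorem Mom.dP04 (h : Mom M P Q U d b X) :
    P 0 4 = 4 * M 0 0 + (-1) * P 1 0 + (-1) * P 2 0 + (-1) * P 3 0 + (3/4) * d 0 + (-1/4) * d 1 +
    (-1/4) * d 2 + (-1/4) * d 3 := by
  linear_combination (-12) * (h.Ms 1 0) + (-2) * (h.Qs 1 0) + (-12) * (h.Ms 2 0) + (-2) * (h.Qs 2
  0) + (-12) * (h.Ms 3 0) + (-2) * (h.Qs 3 0) + 1 * (h.hP 0) + (-3/2) * (h.q 0) + 2 * (h.s2 0) +
  (1/2) * (h.q 1) + (1/2) * (h.q 2) + (1/2) * (h.q 3) + 2 * (h.s1 0 1 (by decide)) + 2 * (h.s1 0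
  2 (by decide)) + 2 * (h.s1 0 3 (by decide)) + (-2) * (h.s1 1 0 (by decide)) + (-2) * (h.s1 2 0
  (by decide)) + (-2) * (h.s1 3 0 (by decide))

theorem Mom.dP11 (h : Mom M P Q U d b X) :
    P 1 1 = (1/2) + (-4) * M 1 1 + (-1/4) * d 1 := by
  linear_combination (1/2) * (h.q 1) + (-2) * (h.s2 1)

theorem Mom.dP12 (h : Mom M P Q U d b X) :
    P 1 2 = 1 * P 2 1 + (-1/4) * d 1 + (1/4) * d 2 := by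
  linear_combination 12 * (h.Ms 2 1) + 2 * (h.Qs 2 1) + (1/2) * (h.q 1) + (-1/2) * (h.q 2) + (-2)
  * (h.s1 1 2 (by decide)) + 2 * (h.s1 2 1 (by decide))

theorem Mom.dP13 (h : Mom M P Q U d b X) :
    P 1 3 = 1 * P 3 1 + (-1/4) * d 1 + (1/4) * d 3 := by
  linear_combination 12 * (h.Ms 3 1) + 2 * (h.Qs 3 1) + (1/2) * (h.q 1) + (-1/2) * (h.q 3) + (-2)
  * (h.s1 1 3 (by decide)) + 2 * (h.s1 3 1 (by decide))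

theorem Mom.dP14 (h : Mom M P Q U d b X) :
    P 1 4 = 4 * M 1 1 + (-1) * P 1 0 + (-1) * P 2 1 + (-1) * P 3 1 + (1/2) * d 1 + (-1/4) * d 2 +
    (-1/4) * d 3 := by
  linear_combination (-12) * (h.Ms 2 1) + (-2) * (h.Qs 2 1) + (-12) * (h.Ms 3 1) + (-2) * (h.Qs 3
  1) + 1 * (h.hP 1) + (-1) * (h.q 1) + 2 * (h.s2 1) + (1/2) * (h.q 2) + (1/2) * (h.q 3) + 2 *
  (h.s1 1 2 (by decide)) + 2 * (h.s1 1 3 (by decide)) + (-2) * (h.s1 2 1 (by decide)) + (-2) *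
  (h.s1 3 1 (by decide))

theorem Mom.dP22 (h : Mom M P Q U d b X) :
    P 2 2 = (1/2) + (-4) * M 2 2 + (-1/4) * d 2 := by
  linear_combination (1/2) * (h.q 2) + (-2) * (h.s2 2)

theorem Mom.dP23 (h : Mom M P Q U d b X) :
    P 2 3 = 1 + (-4) * M 0 1 + (-4) * M 0 2 + (-4) * M 0 3 + (-4) * M 1 2 + (-4) * M 1 3 + (-4) *
    M 2 3 + (-1) * P 1 0 + (-1) * P 2 0 + (-1) * P 2 1 + (-1) * P 3 0 + (-1) * P 3 1 + (1/2) * d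
    0 + (1/4) * d 1 + (-1/4) * d 2 := by
  linear_combination (-8) * (h.Ms 1 0) + (-1) * (h.Qs 1 0) + (-8) * (h.Ms 2 0) + (-1) * (h.Qs 2
  0) + (-8) * (h.Ms 2 1) + (-1) * (h.Qs 2 1) + (-8) * (h.Ms 3 0) + (-1) * (h.Qs 3 0) + (-8) *
  (h.Ms 3 1) + (-1) * (h.Qs 3 1) + 4 * (h.Ms 3 2) + 1 * (h.Qs 3 2) + (-4) * (h.Ms 4 0) + (-1) *
  (h.Qs 4 0) + (-4) * (h.Ms 4 1) + (-1) * (h.Qs 4 1) + (-4) * (h.Ms 4 2) + (-1) * (h.Qs 4 2) +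
  (-4) * (h.Ms 4 3) + (-1) * (h.Qs 4 3) + 1 * (h.Qd 0) + (-4) * (h.hX 0) + (-1/5) * (h.hP 0) +
  (1/5) * (h.hD 0) + (-1) * (h.hQ 0) + (-3/5) * (h.q 0) + (-2) * (h.s2 0) + 1 * (h.Qd 1) + (-4) *
  (h.hX 1) + (-1/5) * (h.hP 1) + (1/5) * (h.hD 1) + (-1) * (h.hQ 1) + (-1/10) * (h.q 1) + (-2) *
  (h.s2 1) + 1 * (h.Qd 2) + (-4) * (h.hX 2) + (-1/5) * (h.hP 2) + (1/5) * (h.hD 2) + (-1) * (h.hQ
  2) + (9/10) * (h.q 2) + (-2) * (h.s2 2) + 1 * (h.Qd 3) + (-4) * (h.hX 3) + (-1/5) * (h.hP 3) +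
  (1/5) * (h.hD 3) + (-1) * (h.hQ 3) + (2/5) * (h.q 3) + (-2) * (h.s2 3) + (-1) * (h.Qd 4) + 4 *
  (h.hX 4) + (-1/5) * (h.hP 4) + (1/5) * (h.hD 4) + 1 * (h.hQ 4) + (2/5) * (h.q 4) + 2 * (h.s2 4)
  + (-2) * (h.s1 1 0 (by decide)) + (-2) * (h.s1 2 0 (by decide)) + (-2) * (h.s1 2 1 (by decide))
  + (-2) * (h.s1 2 3 (by decide)) + (-2) * (h.s1 3 0 (by decide)) + (-2) * (h.s1 3 1 (by decide))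

theorem Mom.dP24 (h : Mom M P Q U d b X) :
    P 2 4 = (-1) + 4 * M 0 1 + 4 * M 0 2 + 4 * M 0 3 + 4 * M 1 2 + 4 * M 1 3 + 4 * M 2 2 + 4 * M
    2 3 + 1 * P 1 0 + 1 * P 3 0 + 1 * P 3 1 + (-1/2) * d 0 + (-1/4) * d 1 + (1/4) * d 2 := by
  linear_combination 8 * (h.Ms 1 0) + 1 * (h.Qs 1 0) + 8 * (h.Ms 2 0) + 1 * (h.Qs 2 0) + 8 *
  (h.Ms 2 1) + 1 * (h.Qs 2 1) + 8 * (h.Ms 3 0) + 1 * (h.Qs 3 0) + 8 * (h.Ms 3 1) + 1 * (h.Qs 3 1)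
  + (-4) * (h.Ms 3 2) + (-1) * (h.Qs 3 2) + 4 * (h.Ms 4 0) + 1 * (h.Qs 4 0) + 4 * (h.Ms 4 1) + 1
  * (h.Qs 4 1) + 4 * (h.Ms 4 2) + 1 * (h.Qs 4 2) + 4 * (h.Ms 4 3) + 1 * (h.Qs 4 3) + (-1) * (h.Qd
  0) + 4 * (h.hX 0) + (1/5) * (h.hP 0) + (-1/5) * (h.hD 0) + 1 * (h.hQ 0) + (3/5) * (h.q 0) + 2 *
  (h.s2 0) + (-1) * (h.Qd 1) + 4 * (h.hX 1) + (1/5) * (h.hP 1) + (-1/5) * (h.hD 1) + 1 * (h.hQ 1)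
  + (1/10) * (h.q 1) + 2 * (h.s2 1) + (-1) * (h.Qd 2) + 4 * (h.hX 2) + (6/5) * (h.hP 2) + (-1/5)
  * (h.hD 2) + 1 * (h.hQ 2) + (-9/10) * (h.q 2) + 4 * (h.s2 2) + (-1) * (h.Qd 3) + 4 * (h.hX 3) +
  (1/5) * (h.hP 3) + (-1/5) * (h.hD 3) + 1 * (h.hQ 3) + (-2/5) * (h.q 3) + 2 * (h.s2 3) + 1 *
  (h.Qd 4) + (-4) * (h.hX 4) + (1/5) * (h.hP 4) + (-1/5) * (h.hD 4) + (-1) * (h.hQ 4) + (-2/5) *
  (h.q 4) + (-2) * (h.s2 4) + 2 * (h.s1 1 0 (by decide)) + 2 * (h.s1 2 0 (by decide)) + 2 * (h.s1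
  2 1 (by decide)) + 2 * (h.s1 2 3 (by decide)) + 2 * (h.s1 3 0 (by decide)) + 2 * (h.s1 3 1 (by
  decide))

theorem Mom.dP32 (h : Mom M P Q U d b X) :
    P 3 2 = 1 + (-4) * M 0 1 + (-4) * M 0 2 + (-4) * M 0 3 + (-4) * M 1 2 + (-4) * M 1 3 + (-4) *
    M 2 3 + (-1) * P 1 0 + (-1) * P 2 0 + (-1) * P 2 1 + (-1) * P 3 0 + (-1) * P 3 1 + (1/2) * d
    0 + (1/4) * d 1 + (-1/4) * d 3 := by
  linear_combination (-8) * (h.Ms 1 0) + (-1) * (h.Qs 1 0) + (-8) * (h.Ms 2 0) + (-1) * (h.Qs 2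
  0) + (-8) * (h.Ms 2 1) + (-1) * (h.Qs 2 1) + (-8) * (h.Ms 3 0) + (-1) * (h.Qs 3 0) + (-8) *
  (h.Ms 3 1) + (-1) * (h.Qs 3 1) + (-8) * (h.Ms 3 2) + (-1) * (h.Qs 3 2) + 8 * (h.Ms 4 0) + 1 *
  (h.Qs 4 0) + 8 * (h.Ms 4 1) + 1 * (h.Qs 4 1) + 8 * (h.Ms 4 2) + 1 * (h.Qs 4 2) + 8 * (h.Ms 4 3)
  + 1 * (h.Qs 4 3) + (-1) * (h.Qd 0) + 8 * (h.hX 0) + (3/5) * (h.hP 0) + (2/5) * (h.hD 0) + 1 *
  (h.hQ 0) + (-1/5) * (h.q 0) + 4 * (h.s2 0) + (-1) * (h.Qd 1) + 8 * (h.hX 1) + (3/5) * (h.hP 1)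
  + (2/5) * (h.hD 1) + 1 * (h.hQ 1) + (3/10) * (h.q 1) + 4 * (h.s2 1) + (-1) * (h.Qd 2) + 8 *
  (h.hX 2) + (3/5) * (h.hP 2) + (2/5) * (h.hD 2) + 1 * (h.hQ 2) + (4/5) * (h.q 2) + 4 * (h.s2 2)
  + (-1) * (h.Qd 3) + 8 * (h.hX 3) + (3/5) * (h.hP 3) + (2/5) * (h.hD 3) + 1 * (h.hQ 3) + (13/10)
  * (h.q 3) + 4 * (h.s2 3) + 1 * (h.Qd 4) + (-8) * (h.hX 4) + (-2/5) * (h.hP 4) + (-3/5) * (h.hD
  4) + (-1) * (h.hQ 4) + (-6/5) * (h.q 4) + (-4) * (h.s2 4) + 2 * (h.s1 0 1 (by decide)) + 2 *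
  (h.s1 0 2 (by decide)) + 2 * (h.s1 0 3 (by decide)) + 2 * (h.s1 1 2 (by decide)) + 2 * (h.s1 1
  3 (by decide)) + 2 * (h.s1 2 3 (by decide))

theorem Mom.dP33 (h : Mom M P Q U d b X) :
    P 3 3 = (1/2) + (-4) * M 3 3 + (-1/4) * d 3 := by
  linear_combination (1/2) * (h.q 3) + (-2) * (h.s2 3)

theorem Mom.dP34 (h : Mom M P Q U d b X) :
    P 3 4 = (-1) + 4 * M 0 1 + 4 * M 0 2 + 4 * M 0 3 + 4 * M 1 2 + 4 * M 1 3 + 4 * M 2 3 + 4 * M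
    3 3 + 1 * P 1 0 + 1 * P 2 0 + 1 * P 2 1 + (-1/2) * d 0 + (-1/4) * d 1 + (1/4) * d 3 := by
  linear_combination 8 * (h.Ms 1 0) + 1 * (h.Qs 1 0) + 8 * (h.Ms 2 0) + 1 * (h.Qs 2 0) + 8 *
  (h.Ms 2 1) + 1 * (h.Qs 2 1) + 8 * (h.Ms 3 0) + 1 * (h.Qs 3 0) + 8 * (h.Ms 3 1) + 1 * (h.Qs 3 1)
  + 8 * (h.Ms 3 2) + 1 * (h.Qs 3 2) + (-8) * (h.Ms 4 0) + (-1) * (h.Qs 4 0) + (-8) * (h.Ms 4 1) +
  (-1) * (h.Qs 4 1) + (-8) * (h.Ms 4 2) + (-1) * (h.Qs 4 2) + (-8) * (h.Ms 4 3) + (-1) * (h.Qs 4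
  3) + 1 * (h.Qd 0) + (-8) * (h.hX 0) + (-3/5) * (h.hP 0) + (-2/5) * (h.hD 0) + (-1) * (h.hQ 0) +
  (1/5) * (h.q 0) + (-4) * (h.s2 0) + 1 * (h.Qd 1) + (-8) * (h.hX 1) + (-3/5) * (h.hP 1) + (-2/5)
  * (h.hD 1) + (-1) * (h.hQ 1) + (-3/10) * (h.q 1) + (-4) * (h.s2 1) + 1 * (h.Qd 2) + (-8) *
  (h.hX 2) + (-3/5) * (h.hP 2) + (-2/5) * (h.hD 2) + (-1) * (h.hQ 2) + (-4/5) * (h.q 2) + (-4) *
  (h.s2 2) + 1 * (h.Qd 3) + (-8) * (h.hX 3) + (2/5) * (h.hP 3) + (-2/5) * (h.hD 3) + (-1) * (h.hQ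
  3) + (-13/10) * (h.q 3) + (-2) * (h.s2 3) + (-1) * (h.Qd 4) + 8 * (h.hX 4) + (2/5) * (h.hP 4) +
  (3/5) * (h.hD 4) + 1 * (h.hQ 4) + (6/5) * (h.q 4) + 4 * (h.s2 4) + (-2) * (h.s1 0 1 (by
  decide)) + (-2) * (h.s1 0 2 (by decide)) + (-2) * (h.s1 0 3 (by decide)) + (-2) * (h.s1 1 2 (by
  decide)) + (-2) * (h.s1 1 3 (by decide)) + (-2) * (h.s1 2 3 (by decide))

theorem Mom.dP40 (h : Mom M P Q U d b X) :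
    P 4 0 = (-1/2) + 4 * M 0 0 + (-1) * P 1 0 + (-1) * P 2 0 + (-1) * P 3 0 + (5/4) * d 0 := by
  linear_combination 1 * (h.hD 0) + (-1/2) * (h.q 0) + 2 * (h.s2 0)

theorem Mom.dP41 (h : Mom M P Q U d b X) :
    P 4 1 = (-1/2) + 4 * M 1 1 + (-1) * P 1 0 + (-1) * P 2 1 + (-1) * P 3 1 + (1/4) * d 0 + 1 * d
    1 := by
  linear_combination (-12) * (h.Ms 1 0) + (-2) * (h.Qs 1 0) + (-1/2) * (h.q 0) + 1 * (h.hD 1) + 2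
  * (h.s2 1) + 2 * (h.s1 0 1 (by decide)) + (-2) * (h.s1 1 0 (by decide))

theorem Mom.dP42 (h : Mom M P Q U d b X) :
    P 4 2 = (-3/2) + 4 * M 0 1 + 4 * M 0 2 + 4 * M 0 3 + 4 * M 1 2 + 4 * M 1 3 + 4 * M 2 2 + 4 *
    M 2 3 + 1 * P 1 0 + 1 * P 3 0 + 1 * P 3 1 + (-1/4) * d 0 + (3/4) * d 2 + (1/4) * d 3 := by
  linear_combination 8 * (h.Ms 1 0) + 1 * (h.Qs 1 0) + (-4) * (h.Ms 2 0) + (-1) * (h.Qs 2 0) +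
  (-4) * (h.Ms 2 1) + (-1) * (h.Qs 2 1) + 8 * (h.Ms 3 0) + 1 * (h.Qs 3 0) + 8 * (h.Ms 3 1) + 1 *
  (h.Qs 3 1) + 8 * (h.Ms 3 2) + 1 * (h.Qs 3 2) + (-8) * (h.Ms 4 0) + (-1) * (h.Qs 4 0) + (-8) *
  (h.Ms 4 1) + (-1) * (h.Qs 4 1) + (-8) * (h.Ms 4 2) + (-1) * (h.Qs 4 2) + (-8) * (h.Ms 4 3) +
  (-1) * (h.Qs 4 3) + 1 * (h.Qd 0) + (-8) * (h.hX 0) + (-3/5) * (h.hP 0) + (-2/5) * (h.hD 0) +
  (-1) * (h.hQ 0) + (-3/10) * (h.q 0) + (-4) * (h.s2 0) + 1 * (h.Qd 1) + (-8) * (h.hX 1) + (-3/5)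
  * (h.hP 1) + (-2/5) * (h.hD 1) + (-1) * (h.hQ 1) + (-4/5) * (h.q 1) + (-4) * (h.s2 1) + 1 *
  (h.Qd 2) + (-8) * (h.hX 2) + (-3/5) * (h.hP 2) + (3/5) * (h.hD 2) + (-1) * (h.hQ 2) + (-3/10) *
  (h.q 2) + (-2) * (h.s2 2) + 1 * (h.Qd 3) + (-8) * (h.hX 3) + (-3/5) * (h.hP 3) + (-2/5) * (h.hD
  3) + (-1) * (h.hQ 3) + (-13/10) * (h.q 3) + (-4) * (h.s2 3) + (-1) * (h.Qd 4) + 8 * (h.hX 4) +
  (2/5) * (h.hP 4) + (3/5) * (h.hD 4) + 1 * (h.hQ 4) + (6/5) * (h.q 4) + 4 * (h.s2 4) + (-2) *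
  (h.s1 0 1 (by decide)) + (-2) * (h.s1 0 3 (by decide)) + (-2) * (h.s1 1 3 (by decide)) + (-2) *
  (h.s1 2 0 (by decide)) + (-2) * (h.s1 2 1 (by decide)) + (-2) * (h.s1 2 3 (by decide))

theorem Mom.dP43 (h : Mom M P Q U d b X) :
    P 4 3 = (-3/2) + 4 * M 0 1 + 4 * M 0 2 + 4 * M 0 3 + 4 * M 1 2 + 4 * M 1 3 + 4 * M 2 3 + 4 *
    M 3 3 + 1 * P 1 0 + 1 * P 2 0 + 1 * P 2 1 + (-1/4) * d 0 + (1/4) * d 2 + (3/4) * d 3 := by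
  linear_combination 8 * (h.Ms 1 0) + 1 * (h.Qs 1 0) + 8 * (h.Ms 2 0) + 1 * (h.Qs 2 0) + 8 *
  (h.Ms 2 1) + 1 * (h.Qs 2 1) + (-4) * (h.Ms 3 0) + (-1) * (h.Qs 3 0) + (-4) * (h.Ms 3 1) + (-1)
  * (h.Qs 3 1) + (-4) * (h.Ms 3 2) + (-1) * (h.Qs 3 2) + 4 * (h.Ms 4 0) + 1 * (h.Qs 4 0) + 4 *
  (h.Ms 4 1) + 1 * (h.Qs 4 1) + 4 * (h.Ms 4 2) + 1 * (h.Qs 4 2) + 4 * (h.Ms 4 3) + 1 * (h.Qs 4 3)
  + (-1) * (h.Qd 0) + 4 * (h.hX 0) + (1/5) * (h.hP 0) + (-1/5) * (h.hD 0) + 1 * (h.hQ 0) + (1/10)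
  * (h.q 0) + 2 * (h.s2 0) + (-1) * (h.Qd 1) + 4 * (h.hX 1) + (1/5) * (h.hP 1) + (-1/5) * (h.hD
  1) + 1 * (h.hQ 1) + (-2/5) * (h.q 1) + 2 * (h.s2 1) + (-1) * (h.Qd 2) + 4 * (h.hX 2) + (1/5) *
  (h.hP 2) + (-1/5) * (h.hD 2) + 1 * (h.hQ 2) + (-9/10) * (h.q 2) + 2 * (h.s2 2) + (-1) * (h.Qd
  3) + 4 * (h.hX 3) + (1/5) * (h.hP 3) + (4/5) * (h.hD 3) + 1 * (h.hQ 3) + (1/10) * (h.q 3) + 4 *
  (h.s2 3) + 1 * (h.Qd 4) + (-4) * (h.hX 4) + (1/5) * (h.hP 4) + (-1/5) * (h.hD 4) + (-1) * (h.hQ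
  4) + (-2/5) * (h.q 4) + (-2) * (h.s2 4) + 2 * (h.s1 0 3 (by decide)) + 2 * (h.s1 1 0 (by
  decide)) + 2 * (h.s1 1 3 (by decide)) + 2 * (h.s1 2 0 (by decide)) + 2 * (h.s1 2 1 (by decide))
  + 2 * (h.s1 2 3 (by decide))

theorem Mom.dP44 (h : Mom M P Q U d b X) :
    P 4 4 = 4 + (-4) * M 0 0 + (-8) * M 0 1 + (-8) * M 0 2 + (-8) * M 0 3 + (-4) * M 1 1 + (-8) *
    M 1 2 + (-8) * M 1 3 + (-4) * M 2 2 + (-8) * M 2 3 + (-4) * M 3 3 + (-3/4) * d 0 + (-3/4) * d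
    1 + (-3/4) * d 2 + (-3/4) * d 3 := by
  linear_combination (-4) * (h.Ms 1 0) + (-4) * (h.Ms 2 0) + (-4) * (h.Ms 2 1) + (-4) * (h.Ms 3
  0) + (-4) * (h.Ms 3 1) + (-4) * (h.Ms 3 2) + 4 * (h.Ms 4 0) + 4 * (h.Ms 4 1) + 4 * (h.Ms 4 2) +
  4 * (h.Ms 4 3) + 4 * (h.hX 0) + (1/5) * (h.hP 0) + (-1/5) * (h.hD 0) + (11/10) * (h.q 0) + 4 *
  (h.hX 1) + (1/5) * (h.hP 1) + (-1/5) * (h.hD 1) + (11/10) * (h.q 1) + 4 * (h.hX 2) + (1/5) *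
  (h.hP 2) + (-1/5) * (h.hD 2) + (11/10) * (h.q 2) + 4 * (h.hX 3) + (1/5) * (h.hP 3) + (-1/5) *
  (h.hD 3) + (11/10) * (h.q 3) + (-4) * (h.hX 4) + (1/5) * (h.hP 4) + (-1/5) * (h.hD 4) + (-2/5)
  * (h.q 4) + (-2) * (h.s2 4)

theorem Mom.dQ01 (h : Mom M P Q U d b X) :
    Q 0 1 = (1/4) + (-6) * M 0 1 + (-1/2) * P 1 0 + (-1/8) * d 1 := by
  linear_combination (-6) * (h.Ms 1 0) + (-1) * (h.Qs 1 0) + (1/4) * (h.q 1) + (-1) * (h.s1 1 0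
  (by decide))

theorem Mom.dQ02 (h : Mom M P Q U d b X) :
    Q 0 2 = (1/4) + (-6) * M 0 2 + (-1/2) * P 2 0 + (-1/8) * d 2 := by
  linear_combination (-6) * (h.Ms 2 0) + (-1) * (h.Qs 2 0) + (1/4) * (h.q 2) + (-1) * (h.s1 2 0
  (by decide))

theorem Mom.dQ03 (h : Mom M P Q U d b X) :
    Q 0 3 = (1/4) + (-6) * M 0 3 + (-1/2) * P 3 0 + (-1/8) * d 3 := by
  linear_combination (-6) * (h.Ms 3 0) + (-1) * (h.Qs 3 0) + (1/4) * (h.q 3) + (-1) * (h.s1 3 0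
  (by decide))

theorem Mom.dQ04 (h : Mom M P Q U d b X) :
    Q 0 4 = (-5/4) + 4 * M 0 0 + 6 * M 0 1 + 6 * M 0 2 + 6 * M 0 3 + (1/2) * P 1 0 + (1/2) * P 2
    0 + (1/2) * P 3 0 + (1/4) * d 0 + (1/8) * d 1 + (1/8) * d 2 + (1/8) * d 3 := by
  linear_combination 6 * (h.Ms 1 0) + 1 * (h.Qs 1 0) + 6 * (h.Ms 2 0) + 1 * (h.Qs 2 0) + 6 *
  (h.Ms 3 0) + 1 * (h.Qs 3 0) + (-1) * (h.Qd 0) + 1 * (h.hQ 0) + (-1/2) * (h.q 0) + 2 * (h.s2 0)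
  + (-1/4) * (h.q 1) + (-1/4) * (h.q 2) + (-1/4) * (h.q 3) + 1 * (h.s1 1 0 (by decide)) + 1 *
  (h.s1 2 0 (by decide)) + 1 * (h.s1 3 0 (by decide))

theorem Mom.dQ12 (h : Mom M P Q U d b X) :
    Q 1 2 = (1/4) + (-6) * M 1 2 + (-1/2) * P 2 1 + (-1/8) * d 2 := by
  linear_combination (-6) * (h.Ms 2 1) + (-1) * (h.Qs 2 1) + (1/4) * (h.q 2) + (-1) * (h.s1 2 1
  (by decide))

theorem Mom.dQ13 (h : Mom M P Q U d b X) :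
    Q 1 3 = (1/4) + (-6) * M 1 3 + (-1/2) * P 3 1 + (-1/8) * d 3 := by
  linear_combination (-6) * (h.Ms 3 1) + (-1) * (h.Qs 3 1) + (1/4) * (h.q 3) + (-1) * (h.s1 3 1
  (by decide))

theorem Mom.dQ14 (h : Mom M P Q U d b X) :
    Q 1 4 = (-5/4) + 6 * M 0 1 + 4 * M 1 1 + 6 * M 1 2 + 6 * M 1 3 + (1/2) * P 1 0 + (1/2) * P 2
    1 + (1/2) * P 3 1 + (3/8) * d 1 + (1/8) * d 2 + (1/8) * d 3 := by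
  linear_combination 6 * (h.Ms 1 0) + 6 * (h.Ms 2 1) + 1 * (h.Qs 2 1) + 6 * (h.Ms 3 1) + 1 *
  (h.Qs 3 1) + (-1) * (h.Qd 1) + 1 * (h.hQ 1) + (-3/4) * (h.q 1) + 2 * (h.s2 1) + (-1/4) * (h.q
  2) + (-1/4) * (h.q 3) + 1 * (h.s1 1 0 (by decide)) + 1 * (h.s1 2 1 (by decide)) + 1 * (h.s1 3 1
  (by decide))

theorem Mom.dQ23 (h : Mom M P Q U d b X) :
    Q 2 3 = (-1/4) + 2 * M 0 1 + 2 * M 0 2 + 2 * M 0 3 + 2 * M 1 2 + 2 * M 1 3 + (-4) * M 2 3 +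
    (1/2) * P 1 0 + (1/2) * P 2 0 + (1/2) * P 2 1 + (1/2) * P 3 0 + (1/2) * P 3 1 + (-1/4) * d 0
    + (-1/8) * d 1 := by
  linear_combination 4 * (h.Ms 1 0) + (1/2) * (h.Qs 1 0) + 4 * (h.Ms 2 0) + (1/2) * (h.Qs 2 0) +
  4 * (h.Ms 2 1) + (1/2) * (h.Qs 2 1) + 4 * (h.Ms 3 0) + (1/2) * (h.Qs 3 0) + 4 * (h.Ms 3 1) +
  (1/2) * (h.Qs 3 1) + (-2) * (h.Ms 3 2) + (-1/2) * (h.Qs 3 2) + 2 * (h.Ms 4 0) + (1/2) * (h.Qs 4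
  0) + 2 * (h.Ms 4 1) + (1/2) * (h.Qs 4 1) + 2 * (h.Ms 4 2) + (1/2) * (h.Qs 4 2) + 2 * (h.Ms 4 3)
  + (1/2) * (h.Qs 4 3) + (-1/2) * (h.Qd 0) + 2 * (h.hX 0) + (1/10) * (h.hP 0) + (-1/10) * (h.hD
  0) + (1/2) * (h.hQ 0) + (3/10) * (h.q 0) + 1 * (h.s2 0) + (-1/2) * (h.Qd 1) + 2 * (h.hX 1) +
  (1/10) * (h.hP 1) + (-1/10) * (h.hD 1) + (1/2) * (h.hQ 1) + (1/20) * (h.q 1) + 1 * (h.s2 1) +
  (-1/2) * (h.Qd 2) + 2 * (h.hX 2) + (1/10) * (h.hP 2) + (-1/10) * (h.hD 2) + (1/2) * (h.hQ 2) +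
  (-1/5) * (h.q 2) + 1 * (h.s2 2) + (-1/2) * (h.Qd 3) + 2 * (h.hX 3) + (1/10) * (h.hP 3) +
  (-1/10) * (h.hD 3) + (1/2) * (h.hQ 3) + (-1/5) * (h.q 3) + 1 * (h.s2 3) + (1/2) * (h.Qd 4) +
  (-2) * (h.hX 4) + (1/10) * (h.hP 4) + (-1/10) * (h.hD 4) + (-1/2) * (h.hQ 4) + (-1/5) * (h.q 4)
  + (-1) * (h.s2 4) + 1 * (h.s1 1 0 (by decide)) + 1 * (h.s1 2 0 (by decide)) + 1 * (h.s1 2 1 (by
  decide)) + 1 * (h.s1 3 0 (by decide)) + 1 * (h.s1 3 1 (by decide))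

theorem Mom.dQ24 (h : Mom M P Q U d b X) :
    Q 2 4 = (-3/4) + (-2) * M 0 1 + 4 * M 0 2 + (-2) * M 0 3 + 4 * M 1 2 + (-2) * M 1 3 + 4 * M 2
    2 + 4 * M 2 3 + (-1/2) * P 1 0 + (-1/2) * P 3 0 + (-1/2) * P 3 1 + (1/4) * d 0 + (1/8) * d 1
    + (1/2) * d 2 := by
  linear_combination (-4) * (h.Ms 1 0) + (-1/2) * (h.Qs 1 0) + 2 * (h.Ms 2 0) + (-1/2) * (h.Qs 2
  0) + 2 * (h.Ms 2 1) + (-1/2) * (h.Qs 2 1) + (-4) * (h.Ms 3 0) + (-1/2) * (h.Qs 3 0) + (-4) *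
  (h.Ms 3 1) + (-1/2) * (h.Qs 3 1) + 2 * (h.Ms 3 2) + (1/2) * (h.Qs 3 2) + (-2) * (h.Ms 4 0) +
  (-1/2) * (h.Qs 4 0) + (-2) * (h.Ms 4 1) + (-1/2) * (h.Qs 4 1) + (-2) * (h.Ms 4 2) + (-1/2) *
  (h.Qs 4 2) + (-2) * (h.Ms 4 3) + (-1/2) * (h.Qs 4 3) + (1/2) * (h.Qd 0) + (-2) * (h.hX 0) +
  (-1/10) * (h.hP 0) + (1/10) * (h.hD 0) + (-1/2) * (h.hQ 0) + (-3/10) * (h.q 0) + (-1) * (h.s2
  0) + (1/2) * (h.Qd 1) + (-2) * (h.hX 1) + (-1/10) * (h.hP 1) + (1/10) * (h.hD 1) + (-1/2) *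
  (h.hQ 1) + (-1/20) * (h.q 1) + (-1) * (h.s2 1) + (-1/2) * (h.Qd 2) + (-2) * (h.hX 2) + (-1/10)
  * (h.hP 2) + (1/10) * (h.hD 2) + (1/2) * (h.hQ 2) + (-4/5) * (h.q 2) + 1 * (h.s2 2) + (1/2) *
  (h.Qd 3) + (-2) * (h.hX 3) + (-1/10) * (h.hP 3) + (1/10) * (h.hD 3) + (-1/2) * (h.hQ 3) + (1/5)
  * (h.q 3) + (-1) * (h.s2 3) + (-1/2) * (h.Qd 4) + 2 * (h.hX 4) + (-1/10) * (h.hP 4) + (1/10) *
  (h.hD 4) + (1/2) * (h.hQ 4) + (1/5) * (h.q 4) + 1 * (h.s2 4) + (-1) * (h.s1 1 0 (by decide)) +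
  (-1) * (h.s1 3 0 (by decide)) + (-1) * (h.s1 3 1 (by decide))

theorem Mom.dQ34 (h : Mom M P Q U d b X) :
    Q 3 4 = (-3/4) + (-2) * M 0 1 + (-2) * M 0 2 + 4 * M 0 3 + (-2) * M 1 2 + 4 * M 1 3 + 4 * M 2
    3 + 4 * M 3 3 + (-1/2) * P 1 0 + (-1/2) * P 2 0 + (-1/2) * P 2 1 + (1/4) * d 0 + (1/8) * d 1
    + (1/2) * d 3 := by
  linear_combination (-4) * (h.Ms 1 0) + (-1/2) * (h.Qs 1 0) + (-4) * (h.Ms 2 0) + (-1/2) * (h.Qs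
  2 0) + (-4) * (h.Ms 2 1) + (-1/2) * (h.Qs 2 1) + 2 * (h.Ms 3 0) + (-1/2) * (h.Qs 3 0) + 2 *
  (h.Ms 3 1) + (-1/2) * (h.Qs 3 1) + 2 * (h.Ms 3 2) + (-1/2) * (h.Qs 3 2) + (-2) * (h.Ms 4 0) +
  (-1/2) * (h.Qs 4 0) + (-2) * (h.Ms 4 1) + (-1/2) * (h.Qs 4 1) + (-2) * (h.Ms 4 2) + (-1/2) *
  (h.Qs 4 2) + (-2) * (h.Ms 4 3) + (-1/2) * (h.Qs 4 3) + (1/2) * (h.Qd 0) + (-2) * (h.hX 0) +
  (-1/10) * (h.hP 0) + (1/10) * (h.hD 0) + (-1/2) * (h.hQ 0) + (-3/10) * (h.q 0) + (-1) * (h.s2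
  0) + (1/2) * (h.Qd 1) + (-2) * (h.hX 1) + (-1/10) * (h.hP 1) + (1/10) * (h.hD 1) + (-1/2) *
  (h.hQ 1) + (-1/20) * (h.q 1) + (-1) * (h.s2 1) + (1/2) * (h.Qd 2) + (-2) * (h.hX 2) + (-1/10) *
  (h.hP 2) + (1/10) * (h.hD 2) + (-1/2) * (h.hQ 2) + (1/5) * (h.q 2) + (-1) * (h.s2 2) + (-1/2) *
  (h.Qd 3) + (-2) * (h.hX 3) + (-1/10) * (h.hP 3) + (1/10) * (h.hD 3) + (1/2) * (h.hQ 3) + (-4/5)
  * (h.q 3) + 1 * (h.s2 3) + (-1/2) * (h.Qd 4) + 2 * (h.hX 4) + (-1/10) * (h.hP 4) + (1/10) *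
  (h.hD 4) + (1/2) * (h.hQ 4) + (1/5) * (h.q 4) + 1 * (h.s2 4) + (-1) * (h.s1 1 0 (by decide)) +
  (-1) * (h.s1 2 0 (by decide)) + (-1) * (h.s1 2 1 (by decide))

theorem Mom.dU01 (h : Mom M P Q U d b X) :
    U 0 1 = 1 * U 1 0 + (-1/5) * b 0 + (1/5) * b 1 := by
  linear_combination (1/5) * (h.cc 0 1)

theorem Mom.dU02 (h : Mom M P Q U d b X) :
    U 0 2 = 1 * U 2 0 + (-1/5) * b 0 + (1/5) * b 2 := by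
  linear_combination (1/5) * (h.cc 0 2)

theorem Mom.dU03 (h : Mom M P Q U d b X) :
    U 0 3 = 1 * U 3 0 + (-1/5) * b 0 + (1/5) * b 3 := by
  linear_combination (1/5) * (h.cc 0 3)

theorem Mom.dU04 (h : Mom M P Q U d b X) :
    U 0 4 = (-1) * U 0 0 + (-1) * U 1 0 + (-1) * U 2 0 + (-1) * U 3 0 + (3/5) * b 0 + (-1/5) * b
    1 + (-1/5) * b 2 + (-1/5) * b 3 := by
  linear_combination 1 * (h.hV 0) + (-1/5) * (h.cc 0 1) + (-1/5) * (h.cc 0 2) + (-1/5) * (h.cc 0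
  3)

theorem Mom.dU12 (h : Mom M P Q U d b X) :
    U 1 2 = 1 * U 2 1 + (-1/5) * b 1 + (1/5) * b 2 := by
  linear_combination (1/5) * (h.cc 1 2)

theorem Mom.dU13 (h : Mom M P Q U d b X) :
    U 1 3 = 1 * U 3 1 + (-1/5) * b 1 + (1/5) * b 3 := by
  linear_combination (1/5) * (h.cc 1 3)

theorem Mom.dU14 (h : Mom M P Q U d b X) :
    U 1 4 = (-1) * U 1 0 + (-1) * U 1 1 + (-1) * U 2 1 + (-1) * U 3 1 + (2/5) * b 1 + (-1/5) * b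
    2 + (-1/5) * b 3 := by
  linear_combination 1 * (h.hV 1) + (-1/5) * (h.cc 1 2) + (-1/5) * (h.cc 1 3)

theorem Mom.dU23 (h : Mom M P Q U d b X) :
    U 2 3 = 1 * U 3 2 + (-1/5) * b 2 + (1/5) * b 3 := by
  linear_combination (1/5) * (h.cc 2 3)

theorem Mom.dU24 (h : Mom M P Q U d b X) :
    U 2 4 = (-1) * U 2 0 + (-1) * U 2 1 + (-1) * U 2 2 + (-1) * U 3 2 + (1/5) * b 2 + (-1/5) * b
    3 := by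
  linear_combination 1 * (h.hV 2) + (-1/5) * (h.cc 2 3)

theorem Mom.dU34 (h : Mom M P Q U d b X) :
    U 3 4 = (-1) * U 3 0 + (-1) * U 3 1 + (-1) * U 3 2 + (-1) * U 3 3 := by
  linear_combination 1 * (h.hV 3)

theorem Mom.dU40 (h : Mom M P Q U d b X) :
    U 4 0 = (-1) * U 0 0 + (-1) * U 1 0 + (-1) * U 2 0 + (-1) * U 3 0 + 1 * b 0 := by
  linear_combination 1 * (h.hU 0)

theorem Mom.dU41 (h : Mom M P Q U d b X) :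
    U 4 1 = (-1) * U 1 0 + (-1) * U 1 1 + (-1) * U 2 1 + (-1) * U 3 1 + (1/5) * b 0 + (4/5) * b 1
    := by
  linear_combination 1 * (h.hU 1) + (-1/5) * (h.cc 0 1)

theorem Mom.dU42 (h : Mom M P Q U d b X) :
    U 4 2 = (-1) * U 2 0 + (-1) * U 2 1 + (-1) * U 2 2 + (-1) * U 3 2 + (1/5) * b 0 + (1/5) * b 1
    + (3/5) * b 2 := by
  linear_combination 1 * (h.hU 2) + (-1/5) * (h.cc 0 2) + (-1/5) * (h.cc 1 2)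

theorem Mom.dU43 (h : Mom M P Q U d b X) :
    U 4 3 = (-1) * U 3 0 + (-1) * U 3 1 + (-1) * U 3 2 + (-1) * U 3 3 + (1/5) * b 0 + (1/5) * b 1
    + (1/5) * b 2 + (2/5) * b 3 := by
  linear_combination 1 * (h.hU 3) + (-1/5) * (h.cc 0 3) + (-1/5) * (h.cc 1 3) + (-1/5) * (h.cc 2
  3)

theorem Mom.dU44 (h : Mom M P Q U d b X) :
    U 4 4 = 1 * U 0 0 + 2 * U 1 0 + 1 * U 1 1 + 2 * U 2 0 + 2 * U 2 1 + 1 * U 2 2 + 2 * U 3 0 + 2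
    * U 3 1 + 2 * U 3 2 + 1 * U 3 3 + (-8/5) * b 0 + (-6/5) * b 1 + (-4/5) * b 2 + (-2/5) * b 3
    := by
  linear_combination (-1) * (h.hU 0) + (-1) * (h.hU 1) + (-1) * (h.hU 2) + (-1) * (h.hU 3) + 1 *
  (h.hV 4) + (1/5) * (h.cc 0 1) + (1/5) * (h.cc 0 2) + (1/5) * (h.cc 0 3) + (1/5) * (h.cc 1 2) +
  (1/5) * (h.cc 1 3) + (1/5) * (h.cc 2 3)

theorem Mom.dX0 (h : Mom M P Q U d b X) :
    X 0 = (1/4) + (-1/8) * d 0 := by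
  linear_combination (1/4) * (h.q 0)

theorem Mom.dX1 (h : Mom M P Q U d b X) :
    X 1 = (1/4) + (-1/8) * d 1 := by
  linear_combination (1/4) * (h.q 1)

theorem Mom.dX2 (h : Mom M P Q U d b X) :
    X 2 = (1/4) + (-1/8) * d 2 := by
  linear_combination (1/4) * (h.q 2)

theorem Mom.dX3 (h : Mom M P Q U d b X) :
    X 3 = (1/4) + (-1/8) * d 3 := by
  linear_combination (1/4) * (h.q 3)

theorem Mom.dX4 (h : Mom M P Q U d b X) :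
    X 4 = (1/8) * d 0 + (1/8) * d 1 + (1/8) * d 2 + (1/8) * d 3 := by
  linear_combination (-1/10) * (h.hP 0) + (1/10) * (h.hD 0) + (-1/20) * (h.q 0) + (-1/10) * (h.hP
  1) + (1/10) * (h.hD 1) + (-1/20) * (h.q 1) + (-1/10) * (h.hP 2) + (1/10) * (h.hD 2) + (-1/20) *
  (h.q 2) + (-1/10) * (h.hP 3) + (1/10) * (h.hD 3) + (-1/20) * (h.q 3) + (-1/10) * (h.hP 4) +
  (1/10) * (h.hD 4) + (1/5) * (h.q 4)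

theorem Mom.db4 (h : Mom M P Q U d b X) :
    b 4 = (-1) * b 0 + (-1) * b 1 + (-1) * b 2 + (-1) * b 3 := by
  linear_combination (-1) * (h.hU 0) + 1 * (h.hV 0) + (-1) * (h.hU 1) + 1 * (h.hV 1) + (-1) *
  (h.hU 2) + 1 * (h.hV 2) + (-1) * (h.hU 3) + 1 * (h.hV 3) + (-1) * (h.hU 4) + 1 * (h.hV 4)

theorem Mom.dd4 (h : Mom M P Q U d b X) :
    d 4 = 2 + (-1) * d 0 + (-1) * d 1 + (-1) * d 2 + (-1) * d 3 := by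
  linear_combination (4/5) * (h.hP 0) + (-4/5) * (h.hD 0) + (2/5) * (h.q 0) + (4/5) * (h.hP 1) +
  (-4/5) * (h.hD 1) + (2/5) * (h.q 1) + (4/5) * (h.hP 2) + (-4/5) * (h.hD 2) + (2/5) * (h.q 2) +
  (4/5) * (h.hP 3) + (-4/5) * (h.hD 3) + (2/5) * (h.q 3) + (4/5) * (h.hP 4) + (-4/5) * (h.hD 4) +
  (2/5) * (h.q 4)

end Vale.Agent.P224.R2.H176
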